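import Vale.Agent.P113.CFinal

/-!
# P113: halting detection by particle trajectories of forced Navier-Stokes flows from rest

Positive answer to Q1. The point, the box and the force compiler do not depend on the viscosity.
All definitions are in `Vale.Agent.P113.Defs`.
-/

namespace Vale.Agent.Results.P113.Full

open Vale.Agent.P113 Set

theorem result :
    ∃ (a lo hi : Fin 3 → ℚ) (C : Code → Fin 3 → List Term),
      (∀ i, lo i < hi i ∧ hi i < lo i + 1) ∧
      ∀ ν : ℝ, 0 < ν → IsForceCompiler ν C ∧
        ∀ (M : Machine) (w : List (Fin M.nA)),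
          ∃ (u : Fin 3 → ℝ → T3 → ℝ) (p : ℝ → T3 → ℝ),
            IsGlobalSmooth ν (force ν C M w) u p ∧
            (∀ T > 0, ∀ v q, IsClassical ν (force ν C M w) T v q →
              ∀ t ∈ Icc 0 T, (∀ i, v i t = u i t) ∧ q t = p t) ∧
            ∃ X : ℝ → T3, IsTrajectory u (proj fun i => a i) X ∧
              (∀ X', IsTrajectory u (proj fun i => a i) X' → ∀ t ≥ (0 : ℝ), X' t = X t) ∧
              ((∃ t ≥ (0 : ℝ), X t ∈ boxImage lo hi) ↔ M.Halts w) :=
  Vale.Agent.P113.main

end Vale.Agent.Results.P113.Full
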